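import Vale.Agent.P224.PO.IdX
import Vale.Agent.P224.PO.R7.Rows
import Vale.Agent.P224.PO.R7.El
import Vale.Agent.P224.PO.R7.DF0
import Vale.Agent.P224.PO.R7.DF1

/-!
The identity of the certificate in dimension 7 and the positivity of its left side.
-/

namespace Vale.Agent.P224.PO.R7

open Vale.Agent.P224.UE Vale.Agent.P224.POS Vale.Agent.P224.PO
open scoped RealInnerProductSpace

noncomputable section

/-- the blocks with the multiplier number 0 -/
def B1 : List BlkX := [⟨els0, 562949953421312, N0⟩,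
  ⟨els1, 35184372088832, N1⟩,
  ⟨els2, 140737488355328, N2⟩,
  ⟨els3, 140737488355328, N3⟩,
  ⟨els4, 35184372088832, N4⟩,
  ⟨els5, 4398046511104, N5⟩]

/-- the blocks with the multiplier number 1 -/
def Br : List BlkX := [⟨els6, 562949953421312, N6⟩,
  ⟨els7, 281474976710656, N7⟩,
  ⟨els8, 281474976710656, N8⟩,
  ⟨els9, 140737488355328, N9⟩,
  ⟨els10, 17592186044416, N10⟩,
  ⟨els11, 8796093022208, N11⟩]

/-- the blocks with the multiplier number 2 -/
def S1 : List BlkX := [⟨els12, 32768, N12⟩,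
  ⟨els13, 32768, N13⟩,
  ⟨els14, 33554432, N14⟩]

/-- the blocks with the multiplier number 3 -/
def Sr : List BlkX := [⟨els15, 65536, N15⟩,
  ⟨els16, 131072, N16⟩,
  ⟨els17, 268435456, N17⟩]

/-- the integers replacing the first four variables (not powers of two: the kernel hashes a numeral
by its last 64 bits) -/
def Ms : List Nat := [
  Nat.add (Nat.pow 2 74) 1090297408444377839,
  Nat.add (Nat.pow 2 1167) 672893673074899541,
  Nat.add (Nat.pow 2 8301) 494586791774247929,
  Nat.add (Nat.pow 2 58239) 946030352018653745]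

set_option maxRecDepth 100000 in
/-- **The identity**, checked by the kernel. -/
theorem idM : chkX Ms (PE.sb sbH P) 8 tabH (mulX B1 Br S1 Sr) = true := by
  decide +kernel

lemma hB1 : GoodX B1 :=
  (goodX_cons psd0 (goodX_cons psd1 (goodX_cons psd2 (goodX_cons psd3 (goodX_cons psd4 (goodX_cons psd5 goodX_nil))))))

lemma hBr : GoodX Br :=
  (goodX_cons psd6 (goodX_cons psd7 (goodX_cons psd8 (goodX_cons psd9 (goodX_cons psd10 (goodX_cons psd11 goodX_nil))))))

lemma hS1 : GoodX S1 :=
  (goodX_cons psd12 (goodX_cons psd13 (goodX_cons psd14 goodX_nil)))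

lemma hSr : GoodX Sr :=
  (goodX_cons psd15 (goodX_cons psd16 (goodX_cons psd17 goodX_nil)))

/-- **Positivity** of the left side on pair data with a vector of length at most `5 / 6`. -/
theorem pos {E : Type*} [NormedAddCommGroup E] [InnerProductSpace ℝ E] {e x N y w : E}
    (he : ‖e‖ ^ 2 ≤ 25 / 36) (hx : ‖x‖ = 1) (hN : ‖N‖ = 1) (hy : ‖y‖ = 1) (hw : ‖w‖ = 1)
    (hxN : ⟪x, N⟫ = 0) (hyw : ⟪y, w⟫ = 0) (hs : ⟪x, y⟫ < 1) :
    0 ≤ PE.ev (vh (dv x N y w e)) P :=
  nonneg_of_chkX 8 (by norm_num) idM rfl hB1 hBr hS1 hSr he hx hN hy hw hxN hyw hs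

/-- **The pointwise inequality of the certificate.** -/
theorem hpos {E : Type*} [NormedAddCommGroup E] [InnerProductSpace ℝ E] (e x N y w : E)
    (he : ‖e‖ ^ 2 ≤ 25 / 36) (hx : ‖x‖ = 1) (hN : ‖N‖ = 1) (hy : ‖y‖ = 1) (hw : ‖w‖ = 1)
    (hxN : ⟪x, N⟫ = 0) (hyw : ⟪y, w⟫ = 0) (hs : ⟪x, y⟫ < 1) :
    0 ≤ Vale.Agent.P224.UE.W9 (195689921408 / 137438953472) (74714110088 / 137438953472) (-469011788664 / 137438953472) (587481295952 / 137438953472) (-355540425232 / 137438953472) (-138607453888 / 137438953472) (169138879200 / 137438953472) (21693531632 / 137438953472) (0 / 137438953472)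
        (dv x N y w e)
      + hsum 7 (rlH 137438953472 rows) (dv x N y w e) + XF (-538920519680 / 137438953472) (15850603520 / 137438953472) (-16048736064 / 137438953472) (dv x N y w e)
      + (-74974026600 / 137438953472) * (dv x N y w e) 0 ^ 3 :=
  pos_of hs (pos he hx hN hy hw hxN hyw hs)

end

end Vale.Agent.P224.PO.R7
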